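import Vale.Agent.P308.BI.Defs

/-! P308, bounded independence number: bridge between matchings encoded as involutions
(`Defs.lean`) and Mathlib's `SimpleGraph.Subgraph.IsMatching` / `IsPerfectMatching`. -/

namespace Vale.Agent.P308.BI

open Finset

set_option linter.unusedSectionVars false

variable {V : Type*} [Fintype V] [DecidableEq V]

/-- the subgraph formed by the pairs `{v, f v}`. -/
def toSub (G : SimpleGraph V) (f : V → V) : G.Subgraph where
  verts := {v | f v ≠ v}
  Adj a b := f a = b ∧ f b = a ∧ G.Adj a b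
  adj_sub := fun h => h.2.2
  edge_vert := by
    intro a b h
    obtain ⟨h1, _, h3⟩ := h
    show f a ≠ a
    rw [h1]
    exact h3.ne'
  symm := ⟨fun _ _ h => ⟨h.2.1, h.1, h.2.2.symm⟩⟩

lemma toSub_isMatching {G : SimpleGraph V} {f : V → V} (hf : IsMatch G f) :
    (toSub G f).IsMatching := by
  intro v hv
  refine ⟨f v, ⟨rfl, hf.1 v, hf.2 v hv⟩, ?_⟩
  intro w hw
  exact hw.1.symm

lemma exists_of_isMatching {G : SimpleGraph V} {M : G.Subgraph} (hM : M.IsMatching) :
    ∃ f, IsMatch G f ∧ toSub G f = M := by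
  classical
  let f : V → V := fun v => if h : v ∈ M.verts then (hM h).choose else v
  have hin : ∀ v, v ∈ M.verts → M.Adj v (f v) := by
    intro v hv
    have : f v = (hM hv).choose := dif_pos hv
    rw [this]
    exact (hM hv).choose_spec.1
  have hout : ∀ v, v ∉ M.verts → f v = v := fun v hv => dif_neg hv
  have huniq : ∀ v w, M.Adj v w → f v = w := by
    intro v w h
    exact hM.eq_of_adj_left (hin v (M.edge_vert h)) h
  have hne : ∀ v, f v ≠ v ↔ v ∈ M.verts := by
    intro v
    constructor
    · intro h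
      by_contra hv
      exact h (hout v hv)
    · intro hv
      exact (M.adj_sub (hin v hv)).ne'
  refine ⟨f, ⟨?_, ?_⟩, ?_⟩
  · intro v
    by_cases hv : v ∈ M.verts
    · exact huniq _ _ (hin v hv).symm
    · rw [hout v hv, hout v hv]
  · intro v hv
    exact M.adj_sub (hin v ((hne v).1 hv))
  · ext a b
    · exact hne a
    · constructor
      · rintro ⟨h1, _, h3⟩
        have ha : a ∈ M.verts := (hne a).1 (by rw [h1]; exact h3.ne')
        have := hin a ha
        rwa [h1] at this
      · intro h
        exact ⟨huniq _ _ h, huniq _ _ h.symm, M.adj_sub h⟩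

lemma toSub_injOn (G : SimpleGraph V) : Set.InjOn (toSub G) {f | IsMatch G f} := by
  intro f hf g _ hfg
  funext v
  by_cases hv : f v = v
  · have h1 : v ∉ (toSub G f).verts := fun h => h hv
    rw [hfg] at h1
    have : g v = v := by
      by_contra h
      exact h1 h
    rw [hv, this]
  · have h1 : (toSub G f).Adj v (f v) := ⟨rfl, hf.1 v, hf.2 v hv⟩
    rw [hfg] at h1
    exact h1.1.symm

lemma perfect_image (G : SimpleGraph V) :
    {M : G.Subgraph | M.IsPerfectMatching} = toSub G '' {f | IsPerfect G f} := by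
  ext M
  constructor
  · rintro ⟨hM, hs⟩
    obtain ⟨f, hf, rfl⟩ := exists_of_isMatching hM
    exact ⟨f, ⟨hf, fun v => hs v⟩, rfl⟩
  · rintro ⟨f, hf, rfl⟩
    exact ⟨toSub_isMatching hf.1, fun v => hf.2 v⟩

lemma compl_verts_ncard (G : SimpleGraph V) (f : V → V) :
    ((toSub G f).verts)ᶜ.ncard = (univ.filter (fun v => f v = v)).card := by
  rw [← Set.ncard_coe_finset]
  congr 1
  ext v
  simp [toSub]

lemma nearPerfect_image (G : SimpleGraph V) :
    {M : G.Subgraph | M.IsMatching ∧ (M.verts)ᶜ.ncard = 2} =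
      toSub G '' {f | IsNearPerfect G f} := by
  ext M
  constructor
  · rintro ⟨hM, hs⟩
    obtain ⟨f, hf, rfl⟩ := exists_of_isMatching hM
    rw [compl_verts_ncard] at hs
    exact ⟨f, ⟨hf, hs⟩, rfl⟩
  · rintro ⟨f, hf, rfl⟩
    refine ⟨toSub_isMatching hf.1, ?_⟩
    rw [compl_verts_ncard]
    exact hf.2

/-- `numPerfect` counts Mathlib's perfect matchings. -/
theorem numPerfect_eq (G : SimpleGraph V) :
    numPerfect G = {M : G.Subgraph | M.IsPerfectMatching}.ncard := by
  classical
  rw [perfect_image, Set.InjOn.ncard_image ((toSub_injOn G).mono fun f hf => hf.1)]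
  unfold numPerfect
  rw [← Set.ncard_coe_finset]
  congr 1
  ext f
  simp

/-- `numNearPerfect` counts Mathlib's matchings that leave exactly two vertices uncovered. -/
theorem numNearPerfect_eq (G : SimpleGraph V) :
    numNearPerfect G = {M : G.Subgraph | M.IsMatching ∧ (M.verts)ᶜ.ncard = 2}.ncard := by
  classical
  rw [nearPerfect_image, Set.InjOn.ncard_image ((toSub_injOn G).mono fun f hf => hf.1)]
  unfold numNearPerfect
  rw [← Set.ncard_coe_finset]
  congr 1
  ext f
  simp

/-- Mathlib's independence number bounds our `IndepLE`. -/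
theorem indepLE_of_indepNum_le {G : SimpleGraph V} {k : ℕ} (h : G.indepNum ≤ k) :
    IndepLE G k := by
  intro S hS
  have hI : G.IsIndepSet (S : Set V) := by
    intro x hx y hy hxy
    exact hS x (Finset.mem_coe.1 hx) y (Finset.mem_coe.1 hy) hxy
  exact hI.card_le_indepNum.trans h

/-- a perfect matching in Mathlib's sense gives `0 < numPerfect G`. -/
theorem numPerfect_pos {G : SimpleGraph V} (h : ∃ M : G.Subgraph, M.IsPerfectMatching) :
    0 < numPerfect G := by
  classical
  obtain ⟨M, hM⟩ := h
  have hM' : M ∈ toSub G '' {f | IsPerfect G f} := by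
    rw [← perfect_image]; exact hM
  obtain ⟨f, hf, _⟩ := hM'
  exact Finset.card_pos.2 ⟨f, by rw [mem_filter]; exact ⟨mem_univ _, hf⟩⟩

/-- transfer of the ratio bound to a statement in Mathlib terms only. -/
theorem transfer {G : SimpleGraph V} {k C : ℕ}
    (hmain : IndepLE G k → 0 < numPerfect G → numNearPerfect G ≤ C * numPerfect G)
    (hα : G.indepNum ≤ k) (hZ : ∃ M : G.Subgraph, M.IsPerfectMatching) :
    {M : G.Subgraph | M.IsMatching ∧ (M.verts)ᶜ.ncard = 2}.ncard ≤
      C * {M : G.Subgraph | M.IsPerfectMatching}.ncard := by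
  rw [← numPerfect_eq, ← numNearPerfect_eq]
  exact hmain (indepLE_of_indepNum_le hα) (numPerfect_pos hZ)

end Vale.Agent.P308.BI
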