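import Vale.Agent.P308.BI.Defs

namespace Vale.Agent.P308.BI

open Finset

variable {V : Type*} [Fintype V] [DecidableEq V]

open Classical in
/-- Hamming balls in `V → V`. -/
theorem ball_card [Nonempty V] (f' : V → V) (s : ℕ) :
    (univ.filter (fun f : V → V => (univ.filter (fun x => f x ≠ f' x)).card ≤ s)).card
      ≤ (Fintype.card V ^ 2) ^ s := by
  induction s with
  | zero =>
    have : (univ.filter (fun f : V → V => (univ.filter (fun x => f x ≠ f' x)).card ≤ 0)) ⊆ {f'} := by
      intro f hf
      have h0 := (mem_filter.1 hf).2
      have h1 : (univ.filter (fun x => f x ≠ f' x)) = ∅ := card_eq_zero.1 (Nat.le_zero.1 h0)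
      rw [mem_singleton]
      funext x
      by_contra hx
      have : x ∈ (univ.filter (fun x => f x ≠ f' x)) := mem_filter.2 ⟨mem_univ _, hx⟩
      rw [h1] at this
      exact absurd this (notMem_empty _)
    simpa using card_le_card this
  | succ s ih =>
    set Bs := (univ.filter (fun f : V → V => (univ.filter (fun x => f x ≠ f' x)).card ≤ s)) with hBs
    have hsub : (univ.filter (fun f : V → V => (univ.filter (fun x => f x ≠ f' x)).card ≤ s + 1)) ⊆
        (Bs ×ˢ (univ : Finset (V × V))).image (fun p => Function.update p.1 p.2.1 p.2.2) := by
      intro f hf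
      have h0 := (mem_filter.1 hf).2
      rw [mem_image]
      by_cases hle : (univ.filter (fun x => f x ≠ f' x)).card ≤ s
      · obtain ⟨x⟩ := (inferInstance : Nonempty V)
        exact ⟨(f, (x, f x)), mem_product.2 ⟨mem_filter.2 ⟨mem_univ _, hle⟩, mem_univ _⟩,
          Function.update_eq_self x f⟩
      · have hpos : 0 < (univ.filter (fun x => f x ≠ f' x)).card := by omega
        obtain ⟨x, hx⟩ := card_pos.1 hpos
        have hx' := (mem_filter.1 hx).2
        refine ⟨(Function.update f x (f' x), (x, f x)), mem_product.2 ⟨mem_filter.2 ⟨mem_univ _, ?_⟩,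
          mem_univ _⟩, ?_⟩
        · show (univ.filter (fun y => Function.update f x (f' x) y ≠ f' y)).card ≤ s
          have hss : (univ.filter (fun y => Function.update f x (f' x) y ≠ f' y)) ⊆
              (univ.filter (fun y => f y ≠ f' y)).erase x := by
            intro y hy
            have hy' := (mem_filter.1 hy).2
            have hyx : y ≠ x := by
              rintro rfl
              simp at hy'
            rw [Function.update_of_ne hyx] at hy'
            exact mem_erase.2 ⟨hyx, mem_filter.2 ⟨mem_univ _, hy'⟩⟩
          have := card_le_card hss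
          rw [card_erase_of_mem hx] at this
          omega
        · simp
    calc _ ≤ _ := card_le_card hsub
      _ ≤ (Bs ×ˢ (univ : Finset (V × V))).card := card_image_le
      _ = Bs.card * (Fintype.card V * Fintype.card V) := by
          rw [card_product, card_univ, Fintype.card_prod]
      _ ≤ (Fintype.card V ^ 2) ^ s * (Fintype.card V * Fintype.card V) :=
          Nat.mul_le_mul_right _ ih
      _ = (Fintype.card V ^ 2) ^ (s + 1) := by ring

end Vale.Agent.P308.BI
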