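import Mathlib

/-! P308, graphs of bounded independence number: definitions.
Matchings are encoded as involutions `f : V → V` (`f v` = partner of `v`, `f v = v` if `v` is
uncovered). -/

namespace Vale.Agent.P308.BI

open Finset

variable {V : Type*} [Fintype V] [DecidableEq V]

/-- `f` encodes a matching of `G`: an involution moving a vertex only to a neighbour. -/
def IsMatch (G : SimpleGraph V) (f : V → V) : Prop :=
  (∀ v, f (f v) = v) ∧ ∀ v, f v ≠ v → G.Adj v (f v)

/-- perfect matching: no uncovered vertex. -/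
def IsPerfect (G : SimpleGraph V) (f : V → V) : Prop :=
  IsMatch G f ∧ ∀ v, f v ≠ v

/-- near-perfect matching: exactly two uncovered vertices. -/
def IsNearPerfect (G : SimpleGraph V) (f : V → V) : Prop :=
  IsMatch G f ∧ (univ.filter (fun v => f v = v)).card = 2

open Classical in
/-- number of perfect matchings -/
noncomputable def numPerfect (G : SimpleGraph V) : ℕ :=
  (univ.filter (fun f : V → V => IsPerfect G f)).card

open Classical in
/-- number of near-perfect matchings -/
noncomputable def numNearPerfect (G : SimpleGraph V) : ℕ :=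
  (univ.filter (fun f : V → V => IsNearPerfect G f)).card

/-- independence number at most `k` -/
def IndepLE (G : SimpleGraph V) (k : ℕ) : Prop :=
  ∀ S : Finset V, (∀ x ∈ S, ∀ y ∈ S, x ≠ y → ¬ G.Adj x y) → S.card ≤ k

/-- An augmenting path `u, A 1, f (A 1), A 2, f (A 2), ..., A l, f (A l), A (l+1) = v`
for the matching `f` with uncovered vertices `u`, `v`. -/
structure AugPath (G : SimpleGraph V) (f : V → V) (u v : V) (l : ℕ) (A : ℕ → V) : Prop where
  end_v : A (l + 1) = v
  adj0 : G.Adj u (A 1)
  adj : ∀ j, 1 ≤ j → j ≤ l → G.Adj (f (A j)) (A (j + 1))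
  inj : ∀ i j, 1 ≤ i → i ≤ l + 1 → 1 ≤ j → j ≤ l + 1 → A i = A j → i = j
  ne_u : ∀ j, 1 ≤ j → j ≤ l + 1 → A j ≠ u
  cross : ∀ i j, 1 ≤ i → i ≤ l → 1 ≤ j → j ≤ l + 1 → f (A i) ≠ A j

/-- the outer vertices of the path: `Bv 0 = u`, `Bv j = f (A j)`. -/
def Bv (f : V → V) (u : V) (A : ℕ → V) (j : ℕ) : V := if j = 0 then u else f (A j)

end Vale.Agent.P308.BI
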