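import Vale.Agent.P308.BI.Defs

/-! P308, bounded independence number: flipping an augmenting path turns a near-perfect matching
into a perfect matching that differs from it only on the path. -/

namespace Vale.Agent.P308.BI

open Finset

variable {V : Type*} [Fintype V] [DecidableEq V]

/-- flipping an augmenting path. -/
theorem flip {G : SimpleGraph V} {f : V → V} {u v : V} (l : ℕ) {A : ℕ → V} (hf : IsMatch G f)
    (hu : f u = u) (hv : f v = v) (huv : u ≠ v) (hfix : ∀ x, f x = x → x = u ∨ x = v)
    (hP : AugPath G f u v l A) :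
    ∃ f' : V → V, IsPerfect G f' ∧ (univ.filter (fun x => f x ≠ f' x)).card ≤ 2 * l + 2 := by
  induction l generalizing f u A with
  | zero =>
    have hA : A 1 = v := hP.end_v
    have hadj : G.Adj u v := hA ▸ hP.adj0
    have hinj : ∀ x y, f x = f y → x = y := fun x y h => by rw [← hf.1 x, h, hf.1 y]
    let f' : V → V := fun x => if x = u then v else if x = v then u else f x
    have e_u : f' u = v := by simp [f']
    have e_v : f' v = u := by simp [f', huv.symm]
    have e_o : ∀ x, x ≠ u → x ≠ v → f' x = f x := by
      intro x h1 h2; simp [f', h1, h2]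
    refine ⟨f', ⟨⟨?_, ?_⟩, ?_⟩, ?_⟩
    · intro x
      by_cases h1 : x = u
      · rw [h1, e_u, e_v]
      by_cases h2 : x = v
      · rw [h2, e_v, e_u]
      have h3 : f x ≠ u := fun h => h1 (hinj x u (by rw [h, hu]))
      have h4 : f x ≠ v := fun h => h2 (hinj x v (by rw [h, hv]))
      rw [e_o x h1 h2, e_o _ h3 h4, hf.1 x]
    · intro x hx
      by_cases h1 : x = u
      · rw [h1, e_u]; exact hadj
      by_cases h2 : x = v
      · rw [h2, e_v]; exact hadj.symm
      rw [e_o x h1 h2] at hx ⊢
      exact hf.2 x hx
    · intro x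
      by_cases h1 : x = u
      · rw [h1, e_u]; exact huv.symm
      by_cases h2 : x = v
      · rw [h2, e_v]; exact huv
      rw [e_o x h1 h2]
      intro h
      rcases hfix x h with h | h
      · exact h1 h
      · exact h2 h
    · have hsub : univ.filter (fun x => f x ≠ f' x) ⊆ {u, v} := by
        intro x hx
        rw [mem_filter] at hx
        by_contra hx'
        simp only [mem_insert, mem_singleton, not_or] at hx'
        exact hx.2 (e_o x hx'.1 hx'.2).symm
      calc (univ.filter (fun x => f x ≠ f' x)).card ≤ ({u, v} : Finset V).card :=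
            Finset.card_le_card hsub
        _ ≤ 2 := Finset.card_le_two
        _ = 2 * 0 + 2 := by norm_num
  | succ l ih =>
    have hinj : ∀ x y, f x = f y → x = y := fun x y h => by rw [← hf.1 x, h, hf.1 y]
    obtain ⟨a, ha⟩ : ∃ a, a = A 1 := ⟨_, rfl⟩
    obtain ⟨b, hb⟩ : ∃ b, b = f a := ⟨_, rfl⟩
    have hau : a ≠ u := ha ▸ hP.ne_u 1 le_rfl (by omega)
    have hba : b ≠ a := by
      rw [hb, ha]; exact hP.cross 1 1 le_rfl (by omega) le_rfl (by omega)
    have hbu : b ≠ u := by
      intro h
      exact hau (hinj a u (by rw [← hb, h, hu]))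
    have hbv : b ≠ v := by
      rw [hb, ha, ← hP.end_v]
      exact hP.cross 1 (l + 1 + 1) le_rfl (by omega) (by omega) le_rfl
    have hav : a ≠ v := by
      rw [ha, ← hP.end_v]
      intro h
      have := hP.inj 1 (l + 1 + 1) le_rfl (by omega) (by omega) le_rfl h
      omega
    have hfb : f b = a := by rw [hb, hf.1 a]
    let f1 : V → V := fun x => if x = u then a else if x = a then u else if x = b then b else f x
    have e_u : f1 u = a := by simp [f1]
    have e_a : f1 a = u := by simp [f1, hau]
    have e_b : f1 b = b := by simp [f1, hbu, hba]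
    have e_o : ∀ x, x ≠ u → x ≠ a → x ≠ b → f1 x = f x := by
      intro x h1 h2 h3; simp [f1, h1, h2, h3]
    have hm1 : IsMatch G f1 := by
      refine ⟨?_, ?_⟩
      · intro x
        by_cases h1 : x = u
        · rw [h1, e_u, e_a]
        by_cases h2 : x = a
        · rw [h2, e_a, e_u]
        by_cases h3 : x = b
        · rw [h3, e_b, e_b]
        have h4 : f x ≠ u := fun h => h1 (hinj x u (by rw [h, hu]))
        have h5 : f x ≠ a := fun h => h3 (hinj x b (by rw [h, hfb]))
        have h6 : f x ≠ b := fun h => h2 (hinj x a (by rw [h, hb]))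
        rw [e_o x h1 h2 h3, e_o _ h4 h5 h6, hf.1 x]
      · intro x hx
        by_cases h1 : x = u
        · rw [h1, e_u, ha]; exact hP.adj0
        by_cases h2 : x = a
        · rw [h2, e_a, ha]; exact hP.adj0.symm
        by_cases h3 : x = b
        · rw [h3, e_b] at hx; exact absurd rfl hx
        rw [e_o x h1 h2 h3] at hx ⊢
        exact hf.2 x hx
    have hv1 : f1 v = v := by rw [e_o v huv.symm hav.symm hbv.symm, hv]
    have hfix1 : ∀ x, f1 x = x → x = b ∨ x = v := by
      intro x hx
      by_cases h1 : x = u
      · rw [h1, e_u] at hx; exact absurd hx hau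
      by_cases h2 : x = a
      · rw [h2, e_a] at hx; exact absurd hx.symm hau
      by_cases h3 : x = b
      · exact Or.inl h3
      rw [e_o x h1 h2 h3] at hx
      rcases hfix x hx with h | h
      · exact absurd h h1
      · exact Or.inr h
    -- `f1` agrees with `f` on the later path vertices
    have hA1 : ∀ j, 1 ≤ j → j ≤ l + 1 → f1 (A (j + 1)) = f (A (j + 1)) := by
      intro j hj1 hj2
      refine e_o _ (hP.ne_u (j + 1) (by omega) (by omega)) ?_ ?_
      · rw [ha]
        intro h
        have := hP.inj (j + 1) 1 (by omega) (by omega) le_rfl (by omega) h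
        omega
      · rw [hb, ha]
        exact (hP.cross 1 (j + 1) le_rfl (by omega) (by omega) (by omega)).symm
    have hP1 : AugPath G f1 b v l (fun m => A (m + 1)) := by
      refine ⟨hP.end_v, ?_, ?_, ?_, ?_, ?_⟩
      · have := hP.adj 1 le_rfl (by omega)
        rw [← ha, ← hb] at this
        exact this
      · intro j hj1 hj2
        show G.Adj (f1 (A (j + 1))) (A (j + 1 + 1))
        rw [hA1 j hj1 (by omega)]
        exact hP.adj (j + 1) (by omega) (by omega)
      · intro i j hi1 hi2 hj1 hj2 h
        have := hP.inj (i + 1) (j + 1) (by omega) (by omega) (by omega) (by omega) h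
        omega
      · intro j hj1 hj2
        show A (j + 1) ≠ b
        rw [hb, ha]
        exact (hP.cross 1 (j + 1) le_rfl (by omega) (by omega) (by omega)).symm
      · intro i j hi1 hi2 hj1 hj2
        show f1 (A (i + 1)) ≠ A (j + 1)
        rw [hA1 i hi1 (by omega)]
        exact hP.cross (i + 1) (j + 1) (by omega) (by omega) (by omega) (by omega)
    obtain ⟨f', hf', hc⟩ := ih hm1 e_b hv1 hbv hfix1 hP1
    refine ⟨f', hf', ?_⟩
    have hsub : univ.filter (fun x => f x ≠ f' x) ⊆
        univ.filter (fun x => f1 x ≠ f' x) ∪ {u, a} := by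
      intro x hx
      rw [mem_filter] at hx
      rw [mem_union, mem_filter]
      by_cases h1 : x = u
      · right; simp [h1]
      by_cases h2 : x = a
      · right; simp [h2]
      left
      refine ⟨mem_univ _, ?_⟩
      by_cases h3 : x = b
      · rw [h3, e_b]; exact (hf'.2 b).symm
      · rw [e_o x h1 h2 h3]; exact hx.2
    calc (univ.filter (fun x => f x ≠ f' x)).card
        ≤ (univ.filter (fun x => f1 x ≠ f' x) ∪ {u, a}).card := Finset.card_le_card hsub
      _ ≤ (univ.filter (fun x => f1 x ≠ f' x)).card + ({u, a} : Finset V).card :=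
          Finset.card_union_le _ _
      _ ≤ (2 * l + 2) + 2 := Nat.add_le_add hc Finset.card_le_two
      _ = 2 * (l + 1) + 2 := by ring

end Vale.Agent.P308.BI
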