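import Vale.Agent.P308.BI.Defs

namespace Vale.Agent.P308.BI

open Finset

variable {V : Type*} [Fintype V] [DecidableEq V]

/-- greedy independent set dominating to the right. -/
theorem greedy (R : ℕ → ℕ → Prop) (m : ℕ) :
    ∃ D : Finset ℕ, D ⊆ range m ∧ (∀ i ∈ D, ∀ j ∈ D, i < j → ¬ R i j) ∧
      ∀ j, j < m → j ∉ D → ∃ i ∈ D, i < j ∧ R i j := by
  classical
  induction m with
  | zero => exact ⟨∅, by simp, by simp, by simp⟩
  | succ m ih =>
    obtain ⟨D, hD, hind, hdom⟩ := ih
    by_cases h : ∃ i ∈ D, R i m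
    · refine ⟨D, hD.trans (range_subset_range.2 (Nat.le_succ m)), hind, ?_⟩
      intro j hj hjD
      rcases Nat.lt_succ_iff_lt_or_eq.1 hj with hj' | rfl
      · exact hdom j hj' hjD
      · obtain ⟨i, hi, hR⟩ := h
        exact ⟨i, hi, mem_range.1 (hD hi), hR⟩
    · refine ⟨insert m D, ?_, ?_, ?_⟩
      · intro x hx
        rcases mem_insert.1 hx with rfl | hx
        · simp
        · exact mem_range.2 (Nat.lt_succ_of_lt (mem_range.1 (hD hx)))
      · intro i hi j hj hij
        rcases mem_insert.1 hi with hi' | hi'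
        · rcases mem_insert.1 hj with hj' | hj'
          · omega
          · exact absurd (mem_range.1 (hD hj')) (by omega)
        · rcases mem_insert.1 hj with hj' | hj'
          · exact fun hR => h ⟨i, hi', hj' ▸ hR⟩
          · exact hind i hi' j hj' hij
      · intro j hj hjD
        have hjm : j ≠ m := fun e => hjD (e ▸ mem_insert_self _ _)
        have hjD' : j ∉ D := fun e => hjD (mem_insert_of_mem e)
        obtain ⟨i, hi, hij, hR⟩ := hdom j (by omega) hjD'
        exact ⟨i, mem_insert_of_mem hi, hij, hR⟩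

lemma Bv_inj {G : SimpleGraph V} {f : V → V} {u v : V} {l : ℕ} {A : ℕ → V}
    (hf : IsMatch G f) (hu : f u = u) (hP : AugPath G f u v l A) {i j : ℕ} (hi : i ≤ l)
    (hj : j ≤ l) (h : Bv f u A i = Bv f u A j) : i = j := by
  have key : ∀ j, 1 ≤ j → j ≤ l → f (A j) ≠ u := by
    intro j h1 h2 e
    have : A j = u := by
      have := congrArg f e
      rw [hf.1, hu] at this
      exact this
    exact hP.ne_u j h1 (by omega) this
  unfold Bv at h
  by_cases hi0 : i = 0 <;> by_cases hj0 : j = 0
  · omega
  · simp only [hi0, hj0, if_true, if_false] at h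
    exact absurd h.symm (key j (by omega) hj)
  · simp only [hi0, hj0, if_true, if_false] at h
    exact absurd h (key i (by omega) hi)
  · simp only [hi0, hj0, if_false] at h
    have : A i = A j := by
      have := congrArg f h
      rwa [hf.1, hf.1] at this
    exact hP.inj i j (by omega) (by omega) (by omega) (by omega) this

/-- statement of the splice lemma, used as a hypothesis here to keep the files independent -/
def SpliceStmt (G : SimpleGraph V) (f : V → V) (u v : V) : Prop :=
  ∀ (l : ℕ) (A : ℕ → V), AugPath G f u v l A → ∀ i j t : ℕ, i < j → j < t → t ≤ l + 1 →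
    i + 2 < t → G.Adj (Bv f u A i) (Bv f u A j) → G.Adj (A j) (A t) →
    ∃ l' A', l' < l ∧ AugPath G f u v l' A'

/-- a shortest augmenting path has at most `3 k` matching edges. -/
theorem short_of_minimal {G : SimpleGraph V} {f : V → V} {u v : V} {l : ℕ} {A : ℕ → V} {k : ℕ}
    (hα : IndepLE G k) (hf : IsMatch G f) (hu : f u = u) (hS : SpliceStmt G f u v)
    (hP : AugPath G f u v l A)
    (hmin : ∀ l' A', AugPath G f u v l' A' → l ≤ l') : l ≤ 3 * k := by
  classical
  obtain ⟨D, hD, hDind, hDdom⟩ := greedy (fun i j => G.Adj (Bv f u A i) (Bv f u A j)) (l + 1)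
  obtain ⟨D', hD', hD'ind, hD'dom⟩ :=
    greedy (fun i j => G.Adj (A (l + 1 - i)) (A (l + 1 - j))) (l + 1)
  -- cardinalities
  have hDk : D.card ≤ k := by
    have hinj : Set.InjOn (Bv f u A) D := by
      intro i hi j hj h
      exact Bv_inj hf hu hP (by have := mem_range.1 (hD hi); omega)
        (by have := mem_range.1 (hD hj); omega) h
    rw [← card_image_of_injOn hinj]
    apply hα
    intro x hx y hy hxy
    obtain ⟨i, hi, rfl⟩ := mem_image.1 hx
    obtain ⟨j, hj, rfl⟩ := mem_image.1 hy
    have hij : i ≠ j := fun e => hxy (e ▸ rfl)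
    rcases lt_or_gt_of_ne hij with h | h
    · exact hDind i hi j hj h
    · exact fun e => hDind j hj i hi h e.symm
  have hD'k : D'.card ≤ k := by
    have hinj : Set.InjOn (fun i => A (l + 1 - i)) D' := by
      intro i hi j hj h
      have h1 := mem_range.1 (hD' hi)
      have h2 := mem_range.1 (hD' hj)
      have := hP.inj (l + 1 - i) (l + 1 - j) (by omega) (by omega) (by omega) (by omega) h
      omega
    rw [← card_image_of_injOn hinj]
    apply hα
    intro x hx y hy hxy
    obtain ⟨i, hi, rfl⟩ := mem_image.1 hx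
    obtain ⟨j, hj, rfl⟩ := mem_image.1 hy
    have hij : i ≠ j := fun e => hxy (e ▸ rfl)
    rcases lt_or_gt_of_ne hij with h | h
    · exact hD'ind i hi j hj h
    · exact fun e => hD'ind j hj i hi h e.symm
  -- covering of [1, l]
  have hcover : Icc 1 l ⊆ D ∪ D'.image (fun i => l + 1 - i) ∪ D.image (fun i => i + 1) := by
    intro j hj
    obtain ⟨hj1, hjl⟩ := mem_Icc.1 hj
    by_cases h1 : j ∈ D
    · exact mem_union_left _ (mem_union_left _ h1)
    by_cases h2 : l + 1 - j ∈ D'
    · refine mem_union_left _ (mem_union_right _ (mem_image.2 ⟨l + 1 - j, h2, by omega⟩))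
    obtain ⟨i, hiD, hij, hR⟩ := hDdom j (by omega) h1
    obtain ⟨i', hi'D, hi'j, hR'⟩ := hD'dom (l + 1 - j) (by omega) h2
    have hjj : l + 1 - (l + 1 - j) = j := by omega
    simp only [hjj] at hR'
    by_cases hgap : i + 2 < l + 1 - i'
    · obtain ⟨l', A', hl', hP'⟩ := hS l A hP i j (l + 1 - i') hij (by omega) (by omega) hgap hR
        hR'.symm
      exact absurd (hmin l' A' hP') (by omega)
    · refine mem_union_right _ (mem_image.2 ⟨i, hiD, by omega⟩)
  have := card_le_card hcover
  rw [Nat.card_Icc] at this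
  have h3 := card_union_le (D ∪ D'.image (fun i => l + 1 - i)) (D.image (fun i => i + 1))
  have h4 := card_union_le D (D'.image (fun i => l + 1 - i))
  have h5 : (D'.image (fun i => l + 1 - i)).card ≤ D'.card := card_image_le
  have h6 : (D.image (fun i => i + 1)).card ≤ D.card := card_image_le
  omega

end Vale.Agent.P308.BI
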