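import Vale.Agent.P308.BI.Defs
import Vale.Agent.P308.IndepTwo

/-! P308, bounded independence number: passage from the involution coding of matchings to
Mathlib's `SimpleGraph.Subgraph.IsMatching` / `IsPerfectMatching` / `indepNum`. -/

namespace Vale.Agent.P308.BI

open Finset

variable {V : Type*} [Fintype V] [DecidableEq V]

theorem isMatch_iff (G : SimpleGraph V) (f : V → V) :
    IsMatch G f ↔ Vale.Agent.P308.IndepTwo.IsMatch G f := Iff.rfl

theorem indepLE_of_indepNum {G : SimpleGraph V} {k : ℕ} (h : G.indepNum ≤ k) : IndepLE G k := by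
  intro S hS
  have hind : G.IsIndepSet (S : Set V) := by
    intro x hx y hy hxy
    exact hS x (Finset.mem_coe.1 hx) y (Finset.mem_coe.1 hy) hxy
  exact le_trans hind.card_le_indepNum h

theorem ncard_nearPerfect_le (G : SimpleGraph V) :
    {M : G.Subgraph | M.IsMatching ∧ (M.vertsᶜ).ncard = 2}.ncard ≤ numNearPerfect G := by
  classical
  unfold numNearPerfect
  rw [← Set.ncard_coe_finset]
  refine Set.ncard_le_ncard_of_injOn (Vale.Agent.P308.IndepTwo.partner (G := G)) ?_ ?_
    (Finset.finite_toSet _)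
  · rintro M ⟨hM, hc⟩
    refine Finset.mem_coe.2 (Finset.mem_filter.2 ⟨Finset.mem_univ _,
      Vale.Agent.P308.IndepTwo.partner_isMatch hM, ?_⟩)
    rw [← hc, ← Set.ncard_coe_finset]
    congr 1
    ext z
    simp only [Finset.coe_filter, Finset.mem_univ, true_and, Set.mem_ofPred_eq, Set.mem_compl_iff]
    exact Vale.Agent.P308.IndepTwo.partner_fix_iff hM z
  · exact Vale.Agent.P308.IndepTwo.partner_injOn.mono fun M hM => hM.1

theorem numPerfect_le_ncard (G : SimpleGraph V) :
    numPerfect G ≤ {M : G.Subgraph | M.IsPerfectMatching}.ncard := by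
  classical
  unfold numPerfect
  rw [← Set.ncard_coe_finset]
  refine Set.ncard_le_ncard_of_injOn (Vale.Agent.P308.IndepTwo.ofFun G) ?_ ?_ (Set.toFinite _)
  · intro g hg
    obtain ⟨-, h1, h2⟩ := Finset.mem_filter.1 (Finset.mem_coe.1 hg)
    exact Vale.Agent.P308.IndepTwo.ofFun_perfect h1 h2
  · intro g1 hg1 g2 _ h
    obtain ⟨-, h1, h2⟩ := Finset.mem_filter.1 (Finset.mem_coe.1 hg1)
    exact Vale.Agent.P308.IndepTwo.ofFun_inj h1 h2 h

theorem numPerfect_pos {G : SimpleGraph V} (h : ∃ M : G.Subgraph, M.IsPerfectMatching) :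
    0 < numPerfect G := by
  classical
  obtain ⟨M, hM⟩ := h
  unfold numPerfect
  refine Finset.card_pos.2 ⟨Vale.Agent.P308.IndepTwo.partner M, Finset.mem_filter.2
    ⟨Finset.mem_univ _, Vale.Agent.P308.IndepTwo.partner_isMatch hM.1, fun v hv => ?_⟩⟩
  exact (Vale.Agent.P308.IndepTwo.partner_fix_iff hM.1 v).1 hv (hM.2 v)

/-- transfer of a ratio bound from the involution coding to Mathlib's matchings -/
theorem literal_of_main {G : SimpleGraph V} {k C : ℕ}
    (hmain : IndepLE G k → 0 < numPerfect G → numNearPerfect G ≤ C * numPerfect G)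
    (hα : G.indepNum ≤ k) (hZ : ∃ M : G.Subgraph, M.IsPerfectMatching) :
    {M : G.Subgraph | M.IsMatching ∧ (M.vertsᶜ).ncard = 2}.ncard
      ≤ C * {M : G.Subgraph | M.IsPerfectMatching}.ncard :=
  calc _ ≤ numNearPerfect G := ncard_nearPerfect_le G
    _ ≤ C * numPerfect G := hmain (indepLE_of_indepNum hα) (numPerfect_pos hZ)
    _ ≤ _ := Nat.mul_le_mul_left _ (numPerfect_le_ncard G)

end Vale.Agent.P308.BI
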