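import Vale.Agent.P308.BI.Defs

/-! P308, bounded independence number: splicing two chords of an augmenting path. -/

namespace Vale.Agent.P308.BI

open Finset

variable {V : Type*} [Fintype V] [DecidableEq V]

/-- a chord `Bv i ~ Bv j` and a chord `A j ~ A t` with `i < j < t`, `t - i > 2`
give a shorter augmenting path. -/
theorem splice {G : SimpleGraph V} {f : V → V} {u v : V} {l : ℕ} {A : ℕ → V} (hf : IsMatch G f)
    (hu : f u = u) (hv : f v = v)
    (hP : AugPath G f u v l A) {i j t : ℕ} (hij : i < j) (hjt : j < t) (htl : t ≤ l + 1)
    (hgap : i + 2 < t) (h1 : G.Adj (Bv f u A i) (Bv f u A j)) (h2 : G.Adj (A j) (A t)) :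
    ∃ l' A', l' < l ∧ AugPath G f u v l' A' := by
  obtain ⟨s, hs⟩ : ∃ s, t = i + 2 + s := ⟨t - (i + 2), by omega⟩
  obtain ⟨l', hl'⟩ : ∃ l', l = l' + s := ⟨l - s, by omega⟩
  have hs1 : 1 ≤ s := by omega
  have hinv : ∀ x, f (f x) = x := hf.1
  have hBj : Bv f u A j = f (A j) := by
    unfold Bv
    rw [if_neg (by omega)]
  rw [hBj] at h1
  let A' : ℕ → V := fun m => if m ≤ i then A m else if m = i + 1 then f (A j) else A (m + s)
  have hA1 : ∀ m, m ≤ i → A' m = A m := by
    intro m hm
    show (if m ≤ i then A m else if m = i + 1 then f (A j) else A (m + s)) = A m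
    rw [if_pos hm]
  have hA2 : A' (i + 1) = f (A j) := by
    show (if i + 1 ≤ i then A (i + 1) else if i + 1 = i + 1 then f (A j) else A (i + 1 + s))
      = f (A j)
    rw [if_neg (by omega), if_pos rfl]
  have hA3 : ∀ m, i + 2 ≤ m → A' m = A (m + s) := by
    intro m hm
    show (if m ≤ i then A m else if m = i + 1 then f (A j) else A (m + s)) = A (m + s)
    rw [if_neg (by omega), if_neg (by omega)]
  have htri : ∀ a : ℕ, a ≤ i ∨ a = i + 1 ∨ i + 2 ≤ a := by
    intro a
    omega
  refine ⟨l', A', by omega, ?_, ?_, ?_, ?_, ?_, ?_⟩
  · -- end_v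
    rw [hA3 _ (by omega)]
    have : l' + 1 + s = l + 1 := by omega
    rw [this]
    exact hP.end_v
  · -- adj0
    rcases Nat.eq_zero_or_pos i with hi | hi
    · subst hi
      have hB0 : Bv f u A 0 = u := by
        unfold Bv
        rw [if_pos rfl]
      rw [hB0] at h1
      have : A' 1 = f (A j) := hA2
      rw [this]
      exact h1
    · rw [hA1 1 (by omega)]
      exact hP.adj0
  · -- adj
    intro m hm1 hm2
    rcases htri m with h | h | h
    · rcases Nat.lt_or_ge m i with h' | h'
      · rw [hA1 m h, hA1 (m + 1) (by omega)]
        exact hP.adj m hm1 (by omega)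
      · have hmi : m = i := by omega
        subst hmi
        rw [hA1 m h, hA2]
        have hBi : Bv f u A m = f (A m) := by
          unfold Bv
          rw [if_neg (by omega)]
        rw [hBi] at h1
        exact h1
    · subst h
      rw [hA2, hinv, hA3 _ (by omega)]
      have : i + 1 + 1 + s = t := by omega
      rw [this]
      exact h2
    · rw [hA3 m h, hA3 (m + 1) (by omega)]
      have : m + 1 + s = (m + s) + 1 := by omega
      rw [this]
      exact hP.adj (m + s) (by omega) (by omega)
  · -- inj
    intro a b ha1 ha2 hb1 hb2 hab
    rcases htri a with h | h | h <;> rcases htri b with h' | h' | h'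
    · rw [hA1 a h, hA1 b h'] at hab
      exact hP.inj a b ha1 (by omega) hb1 (by omega) hab
    · subst h'
      rw [hA1 a h, hA2] at hab
      exact absurd hab.symm (hP.cross j a (by omega) (by omega) ha1 (by omega))
    · rw [hA1 a h, hA3 b h'] at hab
      have := hP.inj a (b + s) ha1 (by omega) (by omega) (by omega) hab
      omega
    · subst h
      rw [hA2, hA1 b h'] at hab
      exact absurd hab (hP.cross j b (by omega) (by omega) hb1 (by omega))
    · omega
    · subst h
      rw [hA2, hA3 b h'] at hab
      exact absurd hab (hP.cross j (b + s) (by omega) (by omega) (by omega) (by omega))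
    · rw [hA3 a h, hA1 b h'] at hab
      have := hP.inj (a + s) b (by omega) (by omega) hb1 (by omega) hab
      omega
    · subst h'
      rw [hA3 a h, hA2] at hab
      exact absurd hab.symm (hP.cross j (a + s) (by omega) (by omega) (by omega) (by omega))
    · rw [hA3 a h, hA3 b h'] at hab
      have := hP.inj (a + s) (b + s) (by omega) (by omega) (by omega) (by omega) hab
      omega
  · -- ne_u
    intro a ha1 ha2
    rcases htri a with h | h | h
    · rw [hA1 a h]
      exact hP.ne_u a ha1 (by omega)
    · subst h
      rw [hA2]
      intro hc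
      have h3 : A j = u := by
        have := congrArg f hc
        rw [hinv, hu] at this
        exact this
      exact hP.ne_u j (by omega) (by omega) h3
    · rw [hA3 a h]
      exact hP.ne_u (a + s) (by omega) (by omega)
  · -- cross
    intro a b ha1 ha2 hb1 hb2
    have hfinj : ∀ x y, f x = f y → x = y := by
      intro x y hxy
      have := congrArg f hxy
      rw [hinv, hinv] at this
      exact this
    rcases htri a with h | h | h <;> rcases htri b with h' | h' | h'
    · rw [hA1 a h, hA1 b h']
      exact hP.cross a b ha1 (by omega) hb1 (by omega)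
    · subst h'
      rw [hA1 a h, hA2]
      intro hc
      have := hP.inj a j ha1 (by omega) (by omega) (by omega) (hfinj _ _ hc)
      omega
    · rw [hA1 a h, hA3 b h']
      exact hP.cross a (b + s) ha1 (by omega) (by omega) (by omega)
    · subst h
      rw [hA2, hinv, hA1 b h']
      intro hc
      have := hP.inj j b (by omega) (by omega) hb1 (by omega) hc
      omega
    · subst h
      subst h'
      rw [hA2, hinv]
      exact fun hc => hP.cross j j (by omega) (by omega) (by omega) (by omega) hc.symm
    · subst h
      rw [hA2, hinv, hA3 b h']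
      intro hc
      have := hP.inj j (b + s) (by omega) (by omega) (by omega) (by omega) hc
      omega
    · rw [hA3 a h, hA1 b h']
      exact hP.cross (a + s) b (by omega) (by omega) hb1 (by omega)
    · subst h'
      rw [hA3 a h, hA2]
      intro hc
      have := hP.inj (a + s) j (by omega) (by omega) (by omega) (by omega) (hfinj _ _ hc)
      omega
    · rw [hA3 a h, hA3 b h']
      exact hP.cross (a + s) (b + s) (by omega) (by omega) (by omega) (by omega)

end Vale.Agent.P308.BI
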