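import Vale.Agent.P308.BI.Orbit
import Vale.Agent.P308.BI.Splice
import Vale.Agent.P308.BI.Flip
import Vale.Agent.P308.BI.Greedy
import Vale.Agent.P308.BI.Count

namespace Vale.Agent.P308.BI

open Finset

variable {V : Type*} [Fintype V] [DecidableEq V]

/-- every near-perfect matching is close to a perfect one -/
theorem close_perfect {G : SimpleGraph V} {k : ℕ} (hα : IndepLE G k) {g : V → V}
    (hg : IsPerfect G g) {f : V → V} (hf : IsNearPerfect G f) :
    ∃ f' : V → V, IsPerfect G f' ∧ (univ.filter (fun x => f x ≠ f' x)).card ≤ 6 * k + 2 := by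
  classical
  obtain ⟨hm, hc⟩ := hf
  obtain ⟨u, v, huv, hset⟩ := card_eq_two.1 hc
  have hu : f u = u := by
    have : u ∈ univ.filter (fun v => f v = v) := by rw [hset]; simp
    exact (mem_filter.1 this).2
  have hv : f v = v := by
    have : v ∈ univ.filter (fun v => f v = v) := by rw [hset]; simp
    exact (mem_filter.1 this).2
  have hfix : ∀ x, f x = x → x = u ∨ x = v := by
    intro x hx
    have : x ∈ univ.filter (fun v => f v = v) := mem_filter.2 ⟨mem_univ _, hx⟩
    rw [hset] at this
    simpa using this
  have hex : ∃ l, ∃ A, AugPath G f u v l A := exists_augPath hm hu hv huv hfix hg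
  obtain ⟨A, hP⟩ := Nat.find_spec hex
  have hmin : ∀ l' A', AugPath G f u v l' A' → Nat.find hex ≤ l' :=
    fun l' A' h => Nat.find_min' hex ⟨A', h⟩
  have hS : SpliceStmt G f u v := by
    intro l A hP i j t hij hjt htl hgap h1 h2
    exact splice hm hu hv hP hij hjt htl hgap h1 h2
  have hl := short_of_minimal hα hm hu hS hP hmin
  obtain ⟨f', hf', hd⟩ := flip (Nat.find hex) hm hu hv huv hfix hP
  exact ⟨f', hf', by omega⟩

theorem main (G : SimpleGraph V) (k : ℕ) (hα : IndepLE G k) (hZ : 0 < numPerfect G) :
    numNearPerfect G ≤ (Fintype.card V) ^ (12 * k + 4) * numPerfect G := by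
  classical
  unfold numPerfect at hZ
  obtain ⟨g, hg⟩ := card_pos.1 hZ
  have hg' : IsPerfect G g := (mem_filter.1 hg).2
  by_cases hne : Nonempty V
  · unfold numNearPerfect numPerfect
    have hsub : (univ.filter (fun f : V → V => IsNearPerfect G f)) ⊆
        (univ.filter (fun f : V → V => IsPerfect G f)).biUnion (fun f' =>
          univ.filter (fun f : V → V => (univ.filter (fun x => f x ≠ f' x)).card ≤ 6 * k + 2)) := by
      intro f hf
      obtain ⟨f', hf', hd⟩ := close_perfect hα hg' (mem_filter.1 hf).2
      exact mem_biUnion.2 ⟨f', mem_filter.2 ⟨mem_univ _, hf'⟩, mem_filter.2 ⟨mem_univ _, hd⟩⟩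
    calc _ ≤ _ := card_le_card hsub
      _ ≤ (univ.filter (fun f : V → V => IsPerfect G f)).card * (Fintype.card V ^ 2) ^ (6 * k + 2) :=
          card_biUnion_le_card_mul _ _ _ (fun f' _ => by
            convert ball_card f' (6 * k + 2))
      _ = _ := by
          rw [← pow_mul, Nat.mul_comm]
          congr 2
          ring
  · have : numNearPerfect G = 0 := by
      unfold numNearPerfect
      rw [card_eq_zero, filter_eq_empty_iff]
      intro f _ hf
      obtain ⟨u, v, huv, hset⟩ := card_eq_two.1 hf.2
      exact hne ⟨u⟩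
    omega

end Vale.Agent.P308.BI
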