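import Vale.Agent.P308.BI.Defs

namespace Vale.Agent.P308.BI

open Finset

variable {V : Type*} [Fintype V] [DecidableEq V]

/-- the alternating walk `u, g u, f (g u), g (f (g u)), ...` -/
def altWalk (f g : V → V) (u : V) : ℕ → V
  | 0 => u
  | m + 1 => if m % 2 = 0 then g (altWalk f g u m) else f (altWalk f g u m)

omit [Fintype V] [DecidableEq V] in
theorem altWalk_even (f g : V → V) (u : V) {m : ℕ} (h : m % 2 = 0) :
    altWalk f g u (m + 1) = g (altWalk f g u m) := by
  simp [altWalk, h]

omit [Fintype V] [DecidableEq V] in
theorem altWalk_odd (f g : V → V) (u : V) {m : ℕ} (h : m % 2 = 1) :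
    altWalk f g u (m + 1) = f (altWalk f g u m) := by
  have : ¬ m % 2 = 0 := by omega
  simp [altWalk, this]

omit [Fintype V] [DecidableEq V] in
/-- one more vertex stays new -/
theorem altWalk_step {f g : V → V} {u : V} (hf : ∀ x, f (f x) = x) (hg : ∀ x, g (g x) = x)
    (hu : f u = u) {m : ℕ}
    (hinj : ∀ i j, i ≤ m → j ≤ m → altWalk f g u i = altWalk f g u j → i = j)
    (hne : altWalk f g u (m + 1) ≠ altWalk f g u m) :
    ∀ i j, i ≤ m + 1 → j ≤ m + 1 → altWalk f g u i = altWalk f g u j → i = j := by
  have key : ∀ i, i ≤ m → altWalk f g u (m + 1) ≠ altWalk f g u i := by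
    intro i hi h
    rcases Nat.lt_or_ge i m with him | him
    · rcases Nat.mod_two_eq_zero_or_one m with hm | hm
      · -- the step is g
        rw [altWalk_even f g u hm] at h
        have h' : altWalk f g u m = g (altWalk f g u i) := by rw [← h, hg]
        rcases Nat.mod_two_eq_zero_or_one i with h2 | h2
        · rw [← altWalk_even f g u h2] at h'
          have := hinj m (i + 1) le_rfl (by omega) h'
          omega
        · obtain ⟨i', rfl⟩ : ∃ i', i = i' + 1 := ⟨i - 1, by omega⟩
          rw [altWalk_even f g u (by omega : i' % 2 = 0), hg] at h'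
          have := hinj m i' le_rfl (by omega) h'
          omega
      · rw [altWalk_odd f g u hm] at h
        have h' : altWalk f g u m = f (altWalk f g u i) := by rw [← h, hf]
        rcases Nat.mod_two_eq_zero_or_one i with h2 | h2
        · rcases Nat.eq_zero_or_pos i with h0 | h0
          · subst h0
            have e : altWalk f g u 0 = u := rfl
            rw [e, hu, ← e] at h'
            have := hinj m 0 le_rfl (by omega) h'
            omega
          · obtain ⟨i', rfl⟩ : ∃ i', i = i' + 1 := ⟨i - 1, by omega⟩
            rw [altWalk_odd f g u (by omega : i' % 2 = 1), hf] at h'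
            have := hinj m i' le_rfl (by omega) h'
            omega
        · rw [← altWalk_odd f g u h2] at h'
          have := hinj m (i + 1) le_rfl (by omega) h'
          omega
    · have : i = m := by omega
      subst this
      exact hne h
  intro i j hi hj h
  rcases Nat.lt_or_ge i (m + 1) with hi' | hi'
  · rcases Nat.lt_or_ge j (m + 1) with hj' | hj'
    · exact hinj i j (by omega) (by omega) h
    · have : j = m + 1 := by omega
      subst this
      exact absurd h.symm (key i (by omega))
  · have : i = m + 1 := by omega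
    subst this
    rcases Nat.lt_or_ge j (m + 1) with hj' | hj'
    · exact absurd h (key j (by omega))
    · omega

omit [Fintype V] [DecidableEq V] in
/-- injectivity as long as no odd vertex is fixed by `f` -/
theorem altWalk_inj {f g : V → V} {u : V} (hf : ∀ x, f (f x) = x) (hg : ∀ x, g (g x) = x)
    (hu : f u = u) (hg' : ∀ x, g x ≠ x) (m : ℕ)
    (hno : ∀ i, i < m → i % 2 = 1 → f (altWalk f g u i) ≠ altWalk f g u i) :
    ∀ i j, i ≤ m → j ≤ m → altWalk f g u i = altWalk f g u j → i = j := by
  induction m with
  | zero =>
    intro i j hi hj _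
    omega
  | succ m ih =>
    refine altWalk_step hf hg hu (ih fun i hi => hno i (by omega)) ?_
    rcases Nat.mod_two_eq_zero_or_one m with hm | hm
    · rw [altWalk_even f g u hm]
      exact hg' _
    · rw [altWalk_odd f g u hm]
      exact hno m (by omega) hm

/-- (Orbit.lean) a perfect matching `g` gives an augmenting path for the near-perfect `f`. -/
theorem exists_augPath {G : SimpleGraph V} {f g : V → V} {u v : V} (hf : IsMatch G f)
    (hu : f u = u) (hv : f v = v) (huv : u ≠ v) (hfix : ∀ x, f x = x → x = u ∨ x = v)
    (hg : IsPerfect G g) : ∃ l A, AugPath G f u v l A := by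
  classical
  obtain ⟨⟨hg1, hg2⟩, hg3⟩ := hg
  have hf1 := hf.1
  have hadj : ∀ x, G.Adj x (g x) := fun x => hg2 x (hg3 x)
  -- some odd vertex is fixed by f
  have hex : ∃ l, f (altWalk f g u (2 * l + 1)) = altWalk f g u (2 * l + 1) := by
    by_contra hcon
    have hno : ∀ i, i % 2 = 1 → f (altWalk f g u i) ≠ altWalk f g u i := by
      intro i hi h
      exact hcon ⟨i / 2, by
        have : 2 * (i / 2) + 1 = i := by omega
        rw [this]; exact h⟩
    have hinj : Function.Injective (altWalk f g u) := by
      intro i j h
      exact altWalk_inj hf1 hg1 hu hg3 (max i j) (fun k _ hk => hno k hk) i j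
        (le_max_left _ _) (le_max_right _ _) h
    exact not_injective_infinite_finite _ hinj
  have hl := Nat.find_spec hex
  have hmin : ∀ l', l' < Nat.find hex →
      f (altWalk f g u (2 * l' + 1)) ≠ altWalk f g u (2 * l' + 1) := fun l' h => Nat.find_min hex h
  set l := Nat.find hex with hldef
  have hinj := altWalk_inj hf1 hg1 hu hg3 (2 * l + 1) (fun i hi h2 => by
    have e : 2 * (i / 2) + 1 = i := by omega
    have := hmin (i / 2) (by omega)
    rwa [e] at this)
  have h0 : altWalk f g u 0 = u := rfl
  refine ⟨l, fun j => altWalk f g u (2 * j - 1), ?_, ?_, ?_, ?_, ?_, ?_⟩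
  · -- end_v
    have e : 2 * (l + 1) - 1 = 2 * l + 1 := by omega
    show altWalk f g u (2 * (l + 1) - 1) = v
    rw [e]
    rcases hfix _ hl with h | h
    · exfalso
      rw [← h0] at h
      have := hinj _ _ le_rfl (by omega) h
      omega
    · exact h
  · show G.Adj u (altWalk f g u (2 * 1 - 1))
    have e : 2 * 1 - 1 = 0 + 1 := by omega
    rw [e, altWalk_even f g u (by omega), h0]
    exact hadj u
  · intro j hj1 hj2
    show G.Adj (f (altWalk f g u (2 * j - 1))) (altWalk f g u (2 * (j + 1) - 1))
    have e : 2 * (j + 1) - 1 = (2 * j - 1 + 1) + 1 := by omega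
    rw [e, altWalk_even f g u (by omega : (2 * j - 1 + 1) % 2 = 0),
      altWalk_odd f g u (by omega : (2 * j - 1) % 2 = 1)]
    exact hadj _
  · intro i j hi1 hi2 hj1 hj2 h
    have := hinj _ _ (by omega) (by omega) h
    omega
  · intro j hj1 hj2 h
    have h' : altWalk f g u (2 * j - 1) = altWalk f g u 0 := h
    have := hinj _ _ (by omega) (by omega) h'
    omega
  · intro i j hi1 hi2 hj1 hj2 h
    have h' : f (altWalk f g u (2 * i - 1)) = altWalk f g u (2 * j - 1) := h
    rw [← altWalk_odd f g u (by omega : (2 * i - 1) % 2 = 1)] at h'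
    have := hinj _ _ (by omega) (by omega) h'
    omega

end Vale.Agent.P308.BI
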